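import Mathlib
import Vale.Agent.P136.Green
import Vale.Agent.P136.Identity
import Vale.Agent.P136.Full.Alg.Conj

/-!
# P136: Green's formula for the Lamé operator, and smoothness of the amplitude maps
-/

open MeasureTheory Set Filter
open scoped Topology ContDiff

namespace Vale.Agent.P136.Full

noncomputable section

theorem continuous_pd_one {E : Type*} [NormedAddCommGroup E] [NormedSpace ℂ E] {f : Space → E}
    (hf : ContDiff ℝ 1 f) (i : Fin 3) : Continuous (pd i f) :=
  (hf.continuous_fderiv one_ne_zero).clm_apply continuous_const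

theorem hasDerivAt_insert (i : Fin 3) (y : Fin 2 → ℝ) (t : ℝ) :
    HasDerivAt (fun s : ℝ => i.insertNth (α := fun _ => ℝ) s y) (Pi.single i 1) t := by
  refine hasDerivAt_pi.2 fun k => ?_
  rcases Fin.eq_self_or_eq_succAbove i k with rfl | ⟨j, rfl⟩
  · simp only [Fin.insertNth_apply_same, Pi.single_eq_same]; exact hasDerivAt_id' t
  · simp only [Fin.insertNth_apply_succAbove, Pi.single_eq_of_ne (Fin.succAbove_ne i j)]
    exact hasDerivAt_const t _

/-- The partial derivative of a function vanishing on the boundary has integral zero. -/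
theorem integral_pd_zero {Ω : Set Space} (hΩ : IsOpen Ω) (hb : Bornology.IsBounded Ω) (i : Fin 3)
    {f : Space → ℂ} (hf : ContDiff ℝ 1 f) (h0 : ∀ x ∈ frontier Ω, f x = 0) :
    ∫ x in Ω, pd i f x = 0 :=
  P136.integral_pd_eq_zero hΩ hb i (continuous_pd_one hf i) (fun y t =>
    (hf.differentiable one_ne_zero _).hasFDerivAt.comp_hasDerivAt t (hasDerivAt_insert i y t)) h0

/-- Integration by parts against a function vanishing on the boundary. -/
theorem integral_pd_mul {Ω : Set Space} (hΩ : IsOpen Ω) (hb : Bornology.IsBounded Ω) (i : Fin 3)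
    {f g : Space → ℂ} (hf : ContDiff ℝ 1 f) (hg : ContDiff ℝ 1 g) (h0 : ∀ x ∈ frontier Ω, g x = 0) :
    ∫ x in Ω, pd i f x * g x = -∫ x in Ω, f x * pd i g x := by
  have h := integral_pd_zero hΩ hb i (hf.mul hg) fun x hx => by simp [h0 x hx]
  rw [show pd i (fun x => f x * g x) = fun x => pd i f x * g x + f x * pd i g x from funext fun x =>
    pd_mul i (hf.differentiable one_ne_zero x) (hg.differentiable one_ne_zero x)] at h
  have i1 : IntegrableOn (fun x => pd i f x * g x) Ω :=
    P136.integrableOn_of_continuous hb ((continuous_pd_one hf i).mul hg.continuous)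
  have i2 : IntegrableOn (fun x => f x * pd i g x) Ω :=
    P136.integrableOn_of_continuous hb (hf.continuous.mul (continuous_pd_one hg i))
  simp only [integral_add i1 i2] at h
  exact eq_neg_of_add_eq_zero_left h

theorem contDiff_divv {u : Space → C3} (hu : ContDiff ℝ ∞ u) : ContDiff ℝ ∞ (divv u) :=
  ContDiff.sum fun i _ => contDiff_pd (contDiff_pi.1 hu i) i

theorem contDiff_grad {f : Space → ℂ} (hf : ContDiff ℝ ∞ f) : ContDiff ℝ ∞ (grad f) :=
  contDiff_pi.2 fun i => contDiff_pd hf i

theorem contDiff_lap {E : Type*} [NormedAddCommGroup E] [NormedSpace ℂ E] {f : Space → E}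
    (hf : ContDiff ℝ ∞ f) : ContDiff ℝ ∞ (lap f) :=
  ContDiff.sum fun i _ => contDiff_pd (contDiff_pd hf i) i

theorem contDiff_hessVec {f : Space → ℂ} {v : Space → C3} (hf : ContDiff ℝ ∞ f)
    (hv : ContDiff ℝ ∞ v) : ContDiff ℝ ∞ fun x => hessVec f x (v x) :=
  contDiff_pi.2 fun i => ContDiff.sum fun j _ =>
    (contDiff_pd (contDiff_pd hf i) j).mul (contDiff_pi.1 hv j)

theorem contDiff_bdot {n : WithTop ℕ∞} {a b : Space → C3} (ha : ContDiff ℝ n a) (hb : ContDiff ℝ n b) :
    ContDiff ℝ n fun x => bdot (a x) (b x) :=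
  ContDiff.sum fun i _ => (contDiff_pi.1 ha i).mul (contDiff_pi.1 hb i)

namespace Moduli

variable (M : Moduli)

theorem contDiff_disp {U : Space → Amp} (hU : ContDiff ℝ ∞ U) : ContDiff ℝ ∞ (M.disp U) :=
  ((M.contDiff_nC.smul hU.fst).add (M.contDiff_mC.smul (contDiff_grad hU.snd))).sub
    (hU.snd.smul (contDiff_grad M.contDiff_mC))

theorem contDiff_conjDisp (θ : C3) (τ : ℝ) {U : Space → Amp} (hU : ContDiff ℝ ∞ U) :
    ContDiff ℝ ∞ (M.conjDisp θ τ U) :=
  (M.contDiff_disp hU).add (((contDiff_const.mul M.contDiff_mC).mul hU.snd).smul contDiff_const)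

theorem contDiff_reduced {U : Space → Amp} (hU : ContDiff ℝ ∞ U) : ContDiff ℝ ∞ (M.reduced U) := by
  have hn := M.contDiff_nC
  have hm := M.contDiff_mC
  have hs := M.contDiff_sqC
  have hmu := M.contDiff_muC
  have hA := M.contDiff_AC
  have hg := contDiff_grad hmu
  have hgn := contDiff_grad hn
  have hsi : ContDiff ℝ ∞ fun x => (M.sqC x)⁻¹ := hs.inv fun x => M.sqC_ne x
  have c2 : ∀ c : ℂ, ContDiff ℝ ∞ fun _ : Space => c := fun c => contDiff_const
  refine ContDiff.prodMk ?_ ?_
  · refine ((((contDiff_lap hU.fst).sub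
      (((c2 2).mul hs).smul (contDiff_hessVec hm (contDiff_grad hU.snd)))).sub
      (((contDiff_divv hU.fst).mul hm).smul hg)).add
      (hsi.smul (((((hmu.mul (contDiff_lap hn)).add (contDiff_bdot hgn hg)).smul hU.fst).add
        (((c2 2).mul hmu).smul (contDiff_hessVec hn hU.fst))).add
        (((c2 2).mul (contDiff_bdot hgn hU.fst)).smul hg)))).sub ?_
    simp only [div_eq_mul_inv]
    exact (((c2 2).mul hU.snd).mul hsi).smul
      ((hmu.smul (contDiff_grad (contDiff_lap hm))).add (contDiff_hessVec hm hg))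
  · simp only [div_eq_mul_inv]
    exact ((contDiff_lap hU.snd).add (M.contDiff_cC.mul (contDiff_divv hU.fst))).add
      ((hmu.mul ((hA.add hmu).inv M.AC_add_muC_ne)).mul
        (((hA.sub ((c2 2).mul hmu)).mul (contDiff_bdot hgn hU.fst)).add
          (((hmu.sub hA).mul (contDiff_lap hm)).mul hU.snd)))

theorem contDiff_transport (θ : C3) {U : Space → Amp} (hU : ContDiff ℝ ∞ U) :
    ContDiff ℝ ∞ (M.transport θ U) := by
  have c2 : ∀ c : ℂ, ContDiff ℝ ∞ fun _ : Space => c := fun c => contDiff_const
  refine ContDiff.prodMk ?_ ?_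
  · exact (((c2 2).smul (contDiff_Dth hU.fst θ)).sub
      ((((c2 2).mul M.contDiff_sqC).mul hU.snd).smul (contDiff_hessVec M.contDiff_mC contDiff_const))).sub
      (((contDiff_bdot contDiff_const hU.fst).mul M.contDiff_mC).smul (contDiff_grad M.contDiff_muC))
  · exact ((c2 2).mul (contDiff_Dth hU.snd θ)).add
      (M.contDiff_cC.mul (contDiff_bdot contDiff_const hU.fst))

theorem contDiff_conjReduced (θ : C3) (τ : ℝ) {U : Space → Amp} (hU : ContDiff ℝ ∞ U) :
    ContDiff ℝ ∞ (M.conjReduced θ τ U) := by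
  have h : ContDiff ℝ ∞ fun x => (τ : ℂ) • M.transport θ U x := (M.contDiff_transport θ hU).const_smul _
  exact (M.contDiff_reduced hU).add h

/-- The stress tensor. -/
def stress (V : Space → C3) (i j : Fin 3) (x : Space) : ℂ :=
  (if i = j then 1 else 0) * (M.lamC x * divv V x) +
    M.muC x * (pd j (fun y => V y i) x + pd i (fun y => V y j) x)

theorem contDiff_stress {V : Space → C3} (hV : ContDiff ℝ ∞ V) (i j : Fin 3) :
    ContDiff ℝ ∞ (M.stress V i j) :=
  (contDiff_const.mul (M.contDiff_lamC.mul (contDiff_divv hV))).add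
    (M.contDiff_muC.mul ((contDiff_pd (contDiff_pi.1 hV i) j).add (contDiff_pd (contDiff_pi.1 hV j) i)))

/-- The Lamé operator is the divergence of the stress. -/
theorem sum_pd_stress {V : Space → C3} (hV : ContDiff ℝ ∞ V) (i : Fin 3) (x : Space) :
    ∑ j, pd j (M.stress V i j) x = M.lame V x i := by
  have hc : ∀ k, ContDiff ℝ ∞ fun y => V y k := contDiff_pi.1 hV
  have hp : ∀ j k, DifferentiableAt ℝ (pd j fun y => V y k) x := fun j k =>
    differentiableAt_of (contDiff_pd (hc k) j) x
  have hd := differentiableAt_of (contDiff_divv hV) x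
  have hl := differentiableAt_of M.contDiff_lamC x
  have hm := differentiableAt_of M.contDiff_muC x
  have hdi : ∀ k, pd k (divv V) x = ∑ j, pd k (pd j fun y => V y j) x := fun k =>
    pd_sum Finset.univ k fun j _ => hp j j
  have key : ∀ j, pd j (M.stress V i j) x =
      (if i = j then 1 else 0) * (pd j M.lamC x * divv V x + M.lamC x * pd j (divv V) x) +
        (pd j M.muC x * (pd j (fun y => V y i) x + pd i (fun y => V y j) x) +
          M.muC x * (pd j (pd j fun y => V y i) x + pd i (pd j fun y => V y j) x)) := by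
    intro j
    unfold stress
    rw [pd_add j ((differentiableAt_const _).fun_mul (hl.fun_mul hd))
      (hm.fun_mul ((hp j i).fun_add (hp i j))),
      pd_mul j (differentiableAt_const _) (hl.fun_mul hd), pd_const, pd_mul j hl hd,
      pd_mul j hm ((hp j i).fun_add (hp i j)), pd_add j (hp j i) (hp i j), pd_comm (hc j) j i]
    ring
  simp only [key, lame, lap, hdi, M.AC_eq]
  fin_cases i <;> simp [Fin.sum_univ_three] <;> ring

/-- Green's formula for the Lamé operator. -/
theorem cform_eq_lame {Ω : Set Space} (hΩ : IsOpen Ω) (hb : Bornology.IsBounded Ω)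
    {V φ : Space → C3} (hV : ContDiff ℝ ∞ V) (hφ : ContDiff ℝ 1 φ)
    (h0 : ∀ x ∈ frontier Ω, φ x = 0) :
    M.cform Ω V φ = -∫ x in Ω, bdot (M.lame V x) (φ x) := by
  have hc : ∀ k, ContDiff ℝ 1 fun y => φ y k := contDiff_pi.1 hφ
  have hs : ∀ i j, ContDiff ℝ 1 (M.stress V i j) := fun i j =>
    (M.contDiff_stress hV i j).of_le (by simp)
  have int : ∀ i j, IntegrableOn (fun x => pd j (M.stress V i j) x * φ x i) Ω := fun i j =>
    P136.integrableOn_of_continuous hb ((continuous_pd_one (hs i j) j).mul (hc i).continuous)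
  have int' : ∀ i j, IntegrableOn (fun x => M.stress V i j x * pd j (fun y => φ y i) x) Ω := fun i j =>
    P136.integrableOn_of_continuous hb ((hs i j).continuous.mul (continuous_pd_one (hc i) j))
  have e1 : ∀ x, bdot (M.lame V x) (φ x) = ∑ i, ∑ j, pd j (M.stress V i j) x * φ x i := by
    intro x
    simp only [bdot, ← M.sum_pd_stress hV, Finset.sum_mul]
  have e2 : ∀ x, (M.lamC x * (divv V x * divv φ x) + 2 * M.muC x * ∑ i, ∑ j,
      ((pd j (fun y => V y i) x + pd i (fun y => V y j) x) / 2) *
        ((pd j (fun y => φ y i) x + pd i (fun y => φ y j) x) / 2)) =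
      ∑ i, ∑ j, M.stress V i j x * pd j (fun y => φ y i) x := by
    intro x
    simp [stress, divv, Fin.sum_univ_three]
    ring
  unfold cform
  simp only [e1, e2]
  rw [integral_finsetSum _ fun i _ => integrable_finsetSum _ fun j _ => int i j,
    integral_finsetSum _ fun i _ => integrable_finsetSum _ fun j _ => int' i j,
    ← Finset.sum_neg_distrib]
  refine Finset.sum_congr rfl fun i _ => ?_
  rw [integral_finsetSum _ fun j _ => int i j, integral_finsetSum _ fun j _ => int' i j,
    ← Finset.sum_neg_distrib]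
  refine Finset.sum_congr rfl fun j _ => ?_
  rw [integral_pd_mul hΩ hb j (hs i j) (hc i) fun x hx => by simp [h0 x hx], neg_neg]

end Moduli

end

end Vale.Agent.P136.Full
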