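import Mathlib
import Vale.Agent.P136.Full.Spec
import Vale.Agent.P136.Full.Form.Green
import Vale.Agent.P136.Full.Alg.Lame

/-!
# P136: exponential fields built from approximate solutions of the conjugated reduced system
-/

open MeasureTheory Set Filter Metric
open scoped Topology ContDiff

namespace Vale.Agent.P136.Full

noncomputable section

theorem continuous_ampSqr : Continuous ampSqr := by unfold ampSqr; fun_prop

theorem ampSqr_nonneg' (Y : Amp) : 0 ≤ ampSqr Y :=
  add_nonneg (Finset.sum_nonneg fun _ _ => sq_nonneg _) (sq_nonneg _)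

theorem sobSqr_nonneg' (U : Space → Amp) (x : Space) : 0 ≤ sobSqr U x :=
  add_nonneg (add_nonneg (ampSqr_nonneg' _) (Finset.sum_nonneg fun _ _ => ampSqr_nonneg' _))
    (Finset.sum_nonneg fun _ _ => Finset.sum_nonneg fun _ _ => sq_nonneg _)

theorem continuous_sobSqr' {U : Space → Amp} (hU : ContDiff ℝ ∞ U) : Continuous (sobSqr U) := by
  refine ((continuous_ampSqr.comp hU.continuous).add (continuous_finsetSum _ fun i _ =>
    continuous_ampSqr.comp (contDiff_pd hU i).continuous)).add
    (continuous_finsetSum _ fun i _ => continuous_finsetSum _ fun j _ => ?_)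
  exact (contDiff_pd (contDiff_pd hU.snd i) j).continuous.norm.pow 2

theorem continuous_gradSqr' {u : Space → C3} (hu : ContDiff ℝ 1 u) : Continuous (gradSqr u) :=
  continuous_finsetSum _ fun i _ => continuous_finsetSum _ fun j _ =>
    (continuous_pd_one (contDiff_pi.1 hu i) j).norm.pow 2

theorem gradSqr_nonneg' (u : Space → C3) (x : Space) : 0 ≤ gradSqr u x :=
  Finset.sum_nonneg fun _ _ => Finset.sum_nonneg fun _ _ => sq_nonneg _

/-- The quantities controlled by `sobSqr`. -/
theorem le_sqrt_sobSqr {W : Space → Amp} (hW : ContDiff ℝ ∞ W) (x : Space) (i j : Fin 3) :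
    ‖(W x).1 i‖ ≤ √(sobSqr W x) ∧ ‖(W x).2‖ ≤ √(sobSqr W x) ∧
    ‖pd j (fun y => (W y).1 i) x‖ ≤ √(sobSqr W x) ∧ ‖pd j (fun y => (W y).2) x‖ ≤ √(sobSqr W x) ∧
    ‖pd j (pd i fun y => (W y).2) x‖ ≤ √(sobSqr W x) := by
  have hd : DifferentiableAt ℝ W x := hW.differentiable (by simp) x
  rw [pd_apply j i hd.fst, pd_fst j hd, pd_snd j hd]
  have a1 : ∀ Y : Amp, ‖Y.1 i‖ ^ 2 ≤ ampSqr Y := fun Y =>
    le_add_of_le_of_nonneg (Finset.single_le_sum (f := fun k => ‖Y.1 k‖ ^ 2)
      (fun _ _ => sq_nonneg _) (Finset.mem_univ i)) (sq_nonneg _)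
  have a2 : ∀ Y : Amp, ‖Y.2‖ ^ 2 ≤ ampSqr Y := fun Y =>
    le_add_of_nonneg_of_le (Finset.sum_nonneg fun _ _ => sq_nonneg _) le_rfl
  have h0 := ampSqr_nonneg' (W x)
  have hp := Finset.single_le_sum (f := fun k => ampSqr (pd k W x))
    (fun _ _ => ampSqr_nonneg' _) (Finset.mem_univ j)
  have hh : ‖pd j (pd i fun y => (W y).2) x‖ ^ 2 ≤
      ∑ a, ∑ b, ‖hess (fun y => (W y).2) x a b‖ ^ 2 :=
    (Finset.single_le_sum (f := fun b => ‖hess (fun y => (W y).2) x i b‖ ^ 2)
      (fun _ _ => sq_nonneg _) (Finset.mem_univ j)).trans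
      (Finset.single_le_sum (f := fun a => ∑ b, ‖hess (fun y => (W y).2) x a b‖ ^ 2)
        (fun _ _ => Finset.sum_nonneg fun _ _ => sq_nonneg _) (Finset.mem_univ i))
  have h2 : 0 ≤ ∑ k, ampSqr (pd k W x) := Finset.sum_nonneg fun _ _ => ampSqr_nonneg' _
  have h3 : 0 ≤ ∑ a, ∑ b, ‖hess (fun y => (W y).2) x a b‖ ^ 2 :=
    Finset.sum_nonneg fun _ _ => Finset.sum_nonneg fun _ _ => sq_nonneg _
  have := a1 (W x)
  have := a2 (W x)
  have := a1 (pd j W x)
  have := a2 (pd j W x)
  refine ⟨?_, ?_, ?_, ?_, ?_⟩ <;>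
  · refine Real.le_sqrt_of_sq_le ?_
    unfold sobSqr
    linarith

theorem conjDisp_apply (M : Moduli) (θ : C3) (τ : ℝ) (W : Space → Amp) (x : Space) (i : Fin 3) :
    M.conjDisp θ τ W x i = M.nC x * (W x).1 i + M.mC x * pd i (fun y => (W y).2) x +
      ((τ : ℂ) * θ i * M.mC x - pd i M.mC x) * (W x).2 := by
  simp only [Moduli.conjDisp, Moduli.disp, grad, Pi.add_apply, Pi.sub_apply, Pi.smul_apply, smul_eq_mul]
  ring

theorem conjDisp_sub (M : Moduli) (θ : C3) (τ : ℝ) {U U' : Space → Amp} (hU : ContDiff ℝ ∞ U)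
    (hU' : ContDiff ℝ ∞ U') (x : Space) :
    M.conjDisp θ τ (U - U') x = M.conjDisp θ τ U x - M.conjDisp θ τ U' x := by
  ext i
  have hs : pd i (fun y => ((U - U') y).2) x = pd i (fun y => (U y).2) x - pd i (fun y => (U' y).2) x :=
    pd_sub i (hU.snd.differentiable (by simp) x) (hU'.snd.differentiable (by simp) x)
  simp only [Pi.sub_apply, Prod.snd_sub] at hs
  simp only [conjDisp_apply, Pi.sub_apply, hs, Prod.fst_sub, Prod.snd_sub]
  ring

/-- The gradient of the exponential displacement is controlled by the amplitude norm. -/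
theorem gradSqr_expo_le (M : Moduli) (θ : C3) (τ : ℝ) {K : Set Space} (hK : IsCompact K) :
    ∃ C : ℝ, 0 ≤ C ∧ ∀ W : Space → Amp, ContDiff ℝ ∞ W → ∀ x ∈ K,
      gradSqr (fun y => expo θ τ y • M.conjDisp θ τ W y) x ≤ C * sobSqr W x := by
  set a : Space → ℂ := fun y => expo θ τ y * M.nC y with ha
  set b : Space → ℂ := fun y => expo θ τ y * M.mC y with hb
  set c : Fin 3 → Space → ℂ := fun i y =>
    expo θ τ y * ((τ : ℂ) * θ i * M.mC y - pd i M.mC y) with hc
  have ca : ContDiff ℝ ∞ a := (contDiff_expo θ τ).mul M.contDiff_nC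
  have cb : ContDiff ℝ ∞ b := (contDiff_expo θ τ).mul M.contDiff_mC
  have cc : ∀ i, ContDiff ℝ ∞ (c i) := fun i => (contDiff_expo θ τ).mul
    ((contDiff_const.mul M.contDiff_mC).sub (contDiff_pd M.contDiff_mC i))
  set S : Space → ℝ := fun x => ∑ i, ∑ j, (‖pd j a x‖ + ‖a x‖ + ‖pd j b x‖ + ‖b x‖ +
    ‖pd j (c i) x‖ + ‖c i x‖) ^ 2 with hS
  have hSc : Continuous S := continuous_finsetSum _ fun i _ => continuous_finsetSum _ fun j _ =>
    ((((((contDiff_pd ca j).continuous.norm.add ca.continuous.norm).add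
      (contDiff_pd cb j).continuous.norm).add cb.continuous.norm).add
      (contDiff_pd (cc i) j).continuous.norm).add (cc i).continuous.norm).pow 2
  obtain ⟨C, hC⟩ := hK.exists_bound_of_continuousOn hSc.continuousOn
  refine ⟨max C 0, le_max_right _ _, fun W hW x hx => ?_⟩
  refine le_trans ?_ (mul_le_mul_of_nonneg_right
    (((le_abs_self _).trans (hC x hx)).trans (le_max_left C 0)) (sobSqr_nonneg' W x))
  unfold gradSqr
  simp only [hS, Finset.sum_mul]
  refine Finset.sum_le_sum fun i _ => Finset.sum_le_sum fun j _ => ?_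
  have ew : (fun y => (expo θ τ y • M.conjDisp θ τ W y) i) = fun y =>
      a y * (W y).1 i + b y * pd i (fun z => (W z).2) y + c i y * (W y).2 := by
    funext y
    simp only [Pi.smul_apply, conjDisp_apply, smul_eq_mul, ha, hb, hc]
    ring
  have cw : ContDiff ℝ ∞ fun y => (W y).1 i := contDiff_pi.1 hW.fst i
  have cg : ContDiff ℝ ∞ fun y => (W y).2 := hW.snd
  have cgi := contDiff_pd cg i
  have d : ∀ {f : Space → ℂ}, ContDiff ℝ ∞ f → DifferentiableAt ℝ f x := fun h =>
    Moduli.differentiableAt_of h x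
  rw [ew, pd_add j (((d ca).fun_mul (d cw)).fun_add ((d cb).fun_mul (d cgi))) ((d (cc i)).fun_mul (d cg)),
    pd_add j ((d ca).fun_mul (d cw)) ((d cb).fun_mul (d cgi)), pd_mul j (d ca) (d cw),
    pd_mul j (d cb) (d cgi), pd_mul j (d (cc i)) (d cg)]
  obtain ⟨l1, l2, l3, l4, l5⟩ := le_sqrt_sobSqr hW x i j
  have l6 := (le_sqrt_sobSqr hW x i i).2.2.2.1
  have hn : ∀ (p q : ℂ) (r : ℝ), ‖q‖ ≤ r → ‖p * q‖ ≤ ‖p‖ * r := fun p q r h => by
    rw [norm_mul]; exact mul_le_mul_of_nonneg_left h (norm_nonneg _)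
  have key := norm_add₃_le (a := pd j a x * (W x).1 i + a x * pd j (fun y => (W y).1 i) x)
    (b := pd j b x * pd i (fun z => (W z).2) x + b x * pd j (pd i fun z => (W z).2) x)
    (c := pd j (c i) x * (W x).2 + c i x * pd j (fun y => (W y).2) x)
  have k1 := norm_add_le_of_le (hn (pd j a x) _ _ l1) (hn (a x) _ _ l3)
  have k2 := norm_add_le_of_le (hn (pd j b x) _ _ l6) (hn (b x) _ _ l5)
  have k3 := norm_add_le_of_le (hn (pd j (c i) x) _ _ l2) (hn (c i x) _ _ l4)
  have h4 := key.trans (add_le_add (add_le_add k1 k2) k3)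
  refine (pow_le_pow_left₀ (norm_nonneg _) h4 2).trans_eq ?_
  nlinarith [Real.sq_sqrt (sobSqr_nonneg' W x)]

/-- The energy form of an exponential displacement in terms of the conjugated reduced system. -/
theorem cform_expo (M : Moduli) {Ω : Set Space} (hΩ : IsOpen Ω) (hb : Bornology.IsBounded Ω)
    {θ : C3} (hθ : bdot θ θ = 0) (τ : ℝ) {U : Space → Amp} (hU : ContDiff ℝ ∞ U)
    {φ : Space → C3} (hφ : ContDiff ℝ 1 φ) (h0 : ∀ x ∈ frontier Ω, φ x = 0) :
    M.cform Ω (fun x => expo θ τ x • M.conjDisp θ τ U x) φ =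
      -∫ x in Ω, expo θ τ x * (M.sqC x * bdot (M.conjReduced θ τ U x).1 (φ x) +
        (M.conjReduced θ τ U x).2 * (bdot (grad (fun y => M.AC y * M.mC y) x) (φ x) -
          divv (fun y => ((M.AC y + M.muC y) * M.mC y) • φ y) x)) := by
  set P := M.conjReduced θ τ U with hP
  have cP : ContDiff ℝ ∞ P := M.contDiff_conjReduced θ τ hU
  have ce := contDiff_expo θ τ
  have cE : ContDiff ℝ ∞ fun y => expo θ τ y • U y := ce.smul hU
  set F : Space → ℂ := fun y => expo θ τ y * (P y).2 with hF
  have cF : ContDiff ℝ 1 F := (ce.mul cP.snd).of_le (by simp)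
  set k : Space → ℂ := fun y => (M.AC y + M.muC y) * M.mC y with hk
  have ck : ContDiff ℝ 1 k := ((M.contDiff_AC.add M.contDiff_muC).mul M.contDiff_mC).of_le (by simp)
  have ckφ : ∀ i, ContDiff ℝ 1 fun y => k y * φ y i := fun i => ck.mul (contDiff_pi.1 hφ i)
  set q1 : Space → ℂ := fun x => expo θ τ x * (M.sqC x * bdot (P x).1 (φ x)) +
    F x * bdot (grad (fun y => M.AC y * M.mC y) x) (φ x) with hq1
  have cq1 : Continuous q1 :=
    (ce.continuous.mul (M.contDiff_sqC.continuous.mul (contDiff_bdot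
      (cP.fst.of_le (by simp : (1 : WithTop ℕ∞) ≤ ∞)) hφ).continuous)).add
    (cF.continuous.mul (contDiff_bdot ((contDiff_grad (M.contDiff_AC.mul M.contDiff_mC)).of_le
      (by simp : (1 : WithTop ℕ∞) ≤ ∞)) hφ).continuous)
  have eV : (fun x => expo θ τ x • M.conjDisp θ τ U x) = M.disp (fun y => expo θ τ y • U y) :=
    funext fun x => (M.disp_expo θ τ hU x).symm
  have eR : M.reduced (fun y => expo θ τ y • U y) = fun y => expo θ τ y • P y :=
    funext (M.reduced_expo hθ τ hU)
  have e1 : ∀ x, bdot (M.lame (M.disp fun y => expo θ τ y • U y) x) (φ x) =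
      q1 x + ∑ i, pd i F x * (k x * φ x i) := by
    intro x
    rw [M.lame_disp cE x, eR]
    simp only [Moduli.source, Prod.smul_fst, Prod.smul_snd, smul_eq_mul, Pi.add_apply, Pi.smul_apply,
      hq1, hF, hk, bdot_three, Fin.sum_univ_three, grad]
    ring
  have e2 : ∀ x, divv (fun y => ((M.AC y + M.muC y) * M.mC y) • φ y) x =
      ∑ i, pd i (fun y => k y * φ y i) x := fun x => rfl
  have iq : IntegrableOn q1 Ω := P136.integrableOn_of_continuous hb cq1
  have i1 : ∀ i, IntegrableOn (fun x => pd i F x * (k x * φ x i)) Ω := fun i =>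
    P136.integrableOn_of_continuous hb ((continuous_pd_one cF i).mul (ckφ i).continuous)
  have i2 : ∀ i, IntegrableOn (fun x => F x * pd i (fun y => k y * φ y i) x) Ω := fun i =>
    P136.integrableOn_of_continuous hb (cF.continuous.mul (continuous_pd_one (ckφ i) i))
  rw [eV, M.cform_eq_lame hΩ hb (M.contDiff_disp cE) hφ h0]
  simp only [e1]
  rw [integral_add iq (integrable_finsetSum _ fun i _ => i1 i),
    integral_finsetSum _ fun i _ => i1 i]
  have e3 : ∀ i, ∫ x in Ω, pd i F x * (k x * φ x i) =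
      -∫ x in Ω, F x * pd i (fun y => k y * φ y i) x := fun i =>
    integral_pd_mul hΩ hb i cF (ckφ i) fun x hx => by simp [h0 x hx]
  simp only [e3, Finset.sum_neg_distrib]
  rw [← integral_finsetSum _ fun i _ => i2 i, ← sub_eq_add_neg,
    ← integral_sub iq (integrable_finsetSum _ fun i _ => i2 i)]
  refine congrArg Neg.neg (integral_congr_ae (Eventually.of_forall fun x => ?_))
  simp only [e2, hq1, hF, Finset.mul_sum, mul_sub]
  simp only [Fin.sum_univ_three]
  ring

/-- E': exponential fields from approximate solutions of the conjugated reduced system. -/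
theorem dispSol : DispSolStmt := by
  intro Ω M θ τ R U f hΩ hθ hR hU hf hC hlim
  have hb : Bornology.IsBounded Ω := isBounded_ball.subset (subset_closure.trans hR)
  have hsm : ∀ W : Space → Amp, ContDiff ℝ ∞ W →
      ContDiff ℝ 1 fun x => expo θ τ x • M.conjDisp θ τ W x := fun W hW =>
    ((contDiff_expo θ τ).smul (M.contDiff_conjDisp θ τ hW)).of_le (by simp)
  refine ⟨fun k => hsm _ (hU k), ?_, fun φ hφ h0 => ?_⟩
  · obtain ⟨C, hC0, hCb⟩ := gradSqr_expo_le M θ τ hb.isCompact_closure
    refine squeeze_zero (fun p => integral_nonneg fun x => gradSqr_nonneg' _ _) (fun p => ?_)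
      (by simpa using hC.const_mul C)
    have hW : ContDiff ℝ ∞ (U p.1 - U p.2) := (hU p.1).sub (hU p.2)
    have e : ((fun x => expo θ τ x • M.conjDisp θ τ (U p.1) x) -
        fun x => expo θ τ x • M.conjDisp θ τ (U p.2) x) =
        fun x => expo θ τ x • M.conjDisp θ τ (U p.1 - U p.2) x := by
      funext x; simp [conjDisp_sub M θ τ (hU p.1) (hU p.2), smul_sub]
    have ib : IntegrableOn (sobSqr (U p.1 - U p.2)) (ball (0 : Space) R) :=
      P136.integrableOn_of_continuous isBounded_ball (continuous_sobSqr' hW)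
    rw [e]
    refine (setIntegral_mono_on (P136.integrableOn_of_continuous hb (continuous_gradSqr' (hsm _ hW)))
      ((ib.mono_set (subset_closure.trans hR)).const_mul C) hΩ.measurableSet
      fun x hx => hCb _ hW x (subset_closure hx)).trans ?_
    rw [integral_const_mul]
    exact mul_le_mul_of_nonneg_left (setIntegral_mono_set ib
      (Eventually.of_forall fun x => sobSqr_nonneg' _ x)
      (subset_closure.trans hR).eventuallyLE) hC0
  · set q : Space → ℂ := fun x => expo θ τ x * (bdot (grad (fun y => M.AC y * M.mC y) x) (φ x) -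
      divv (fun y => ((M.AC y + M.muC y) * M.mC y) • φ y) x) with hq
    set s : Fin 3 → Space → ℂ := fun i x => expo θ τ x * M.sqC x * φ x i with hs
    have ck : ContDiff ℝ 1 fun y => (M.AC y + M.muC y) * M.mC y :=
      ((M.contDiff_AC.add M.contDiff_muC).mul M.contDiff_mC).of_le (by simp)
    have cq : Continuous q := (contDiff_expo θ τ).continuous.mul ((contDiff_bdot
      ((contDiff_grad (M.contDiff_AC.mul M.contDiff_mC)).of_le (by simp : (1 : WithTop ℕ∞) ≤ ∞))
      hφ).continuous.sub (continuous_finsetSum _ fun i _ =>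
        continuous_pd_one (ck.mul (contDiff_pi.1 hφ i)) i))
    have cs : ∀ i, Continuous (s i) := fun i => ((contDiff_expo θ τ).continuous.mul
      M.contDiff_sqC.continuous).mul (contDiff_pi.1 hφ i).continuous
    set w : Space → ℝ := fun x => (∑ i, ‖s i x‖ ^ 2) + ‖q x‖ ^ 2 with hw
    have cw : Continuous w := (continuous_finsetSum _ fun i _ => (cs i).norm.pow 2).add (cq.norm.pow 2)
    have hw0 : 0 ≤ ∫ x in Ω, w x := integral_nonneg fun x =>
      add_nonneg (Finset.sum_nonneg fun _ _ => sq_nonneg _) (sq_nonneg _)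
    set D : ℕ → Space → Amp := fun k x => M.conjReduced θ τ (U k) x - (f x, 0) with hD
    have cD : ∀ k, Continuous (D k) := fun k =>
      (M.contDiff_conjReduced θ τ (hU k)).continuous.sub (hf.prodMk continuous_const)
    have cI : ∀ k, Continuous fun x => (∑ i, s i x * (D k x).1 i) + q x * (D k x).2 := fun k =>
      (continuous_finsetSum _ fun i _ => (cs i).mul ((continuous_apply i).comp (cD k).fst)).add
        (cq.mul (cD k).snd)
    have cL : Continuous fun x => expo θ τ x * M.sqC x * bdot (f x) (φ x) :=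
      ((contDiff_expo θ τ).continuous.mul M.contDiff_sqC.continuous).mul
        (continuous_finsetSum _ fun i _ =>
          ((continuous_apply i).comp hf).mul (contDiff_pi.1 hφ i).continuous)
    have key : ∀ k, M.cform Ω (fun x => expo θ τ x • M.conjDisp θ τ (U k) x) φ -
        -(∫ x in Ω, expo θ τ x * M.sqC x * bdot (f x) (φ x)) =
        -∫ x in Ω, ((∑ i, s i x * (D k x).1 i) + q x * (D k x).2) := by
      intro k
      rw [cform_expo M hΩ hb hθ.1 τ (hU k) hφ h0, sub_neg_eq_add, ← eq_sub_iff_add_eq, eq_comm,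
        ← neg_add', neg_inj, ← integral_add (P136.integrableOn_of_continuous hb (cI k))
          (P136.integrableOn_of_continuous hb cL)]
      refine integral_congr_ae (Eventually.of_forall fun x => ?_)
      simp only [hD, hq, hs, bdot_three, Fin.sum_univ_three, Prod.fst_sub, Prod.snd_sub, Pi.sub_apply,
        sub_zero]
      ring
    have bound : ∀ k, ∀ δ : ℝ, 0 < δ →
        ‖∫ x in Ω, ((∑ i, s i x * (D k x).1 i) + q x * (D k x).2)‖ ≤
          δ * (∫ x in Ω, w x) + (∫ x in Ω, ampSqr (D k x)) / δ := by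
      intro k δ hδ
      rw [← integral_const_mul, ← integral_div, ← integral_add
        ((P136.integrableOn_of_continuous hb cw).const_mul δ)
        ((P136.integrableOn_of_continuous hb (continuous_ampSqr.comp' (cD k))).div_const δ)]
      refine (norm_integral_le_integral_norm _).trans (setIntegral_mono
        (P136.integrableOn_of_continuous hb (cI k)).norm
        (((P136.integrableOn_of_continuous hb cw).const_mul δ).add
        ((P136.integrableOn_of_continuous hb (continuous_ampSqr.comp' (cD k))).div_const δ))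
        fun x => ?_)
      have hab : ∀ a b : ℝ, a * b ≤ δ * a ^ 2 + b ^ 2 / δ := by
        intro a b
        rw [← sub_nonneg]
        have e : δ * a ^ 2 + b ^ 2 / δ - a * b =
            ((2 * δ * a - b) ^ 2 + 3 * b ^ 2) / (4 * δ) := by field_simp; ring
        rw [e]; positivity
      have hm : ∀ a b : ℂ, ‖a * b‖ ≤ δ * ‖a‖ ^ 2 + ‖b‖ ^ 2 / δ := fun a b => by
        rw [norm_mul]; exact hab _ _
      refine (norm_add_le_of_le ((norm_sum_le _ _).trans (Finset.sum_le_sum fun i _ => hm _ _))
        (hm _ _)).trans_eq ?_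
      simp only [hw, ampSqr, Fin.sum_univ_three]
      ring
    rw [← tendsto_sub_nhds_zero_iff]
    simp only [key]
    rw [NormedAddGroup.tendsto_nhds_zero]
    intro ε hε
    set δ := ε / (2 * ((∫ x in Ω, w x) + 1)) with hδd
    have hδ : 0 < δ := by positivity
    filter_upwards [hlim.eventually_lt_const (show (0 : ℝ) < δ * (ε / 2) by positivity)] with k hk
    rw [norm_neg]
    refine (bound k δ hδ).trans_lt ?_
    have h1 : (∫ x in Ω, ampSqr (D k x)) / δ < ε / 2 := by
      rw [div_lt_iff₀ hδ, mul_comm]; exact hk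
    have h2 : δ * (∫ x in Ω, w x) ≤ ε / 2 := by
      rw [hδd, div_mul_eq_mul_div, div_le_div_iff₀ (by positivity) two_pos]
      nlinarith
    linarith

end

end Vale.Agent.P136.Full
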