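import Mathlib
import Vale.Agent.P136.Identity

/-!
# P136: equal maps give the bilinear identity along approximate weak solutions
-/

open MeasureTheory Set Filter
open scoped Topology

namespace Vale.Agent.P136.Full

noncomputable section

/-- Squared length of a real gradient. -/
def rsq (G : Fin 3 → Fin 3 → ℝ) : ℝ := ∑ i, ∑ j, G i j ^ 2

/-- The integral of the squared gradient of a real field. -/
def gint (Ω : Set Space) (u : Space → Space) : ℝ := ∫ x in Ω, rsq (P136.pd u x)

theorem rdens_le_rsq (L M : ℝ) (G : Fin 3 → Fin 3 → ℝ) :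
    rdens L M G G ≤ (3 * |L| + 2 * |M|) * rsq G := by
  have h1 : (∑ i, G i i) ^ 2 ≤ 3 * rsq G := by
    simp only [rsq, Fin.sum_univ_three]
    nlinarith [sq_nonneg (G 0 0 - G 1 1), sq_nonneg (G 1 1 - G 2 2), sq_nonneg (G 2 2 - G 0 0),
      sq_nonneg (G 0 1), sq_nonneg (G 1 0), sq_nonneg (G 0 2), sq_nonneg (G 2 0), sq_nonneg (G 1 2),
      sq_nonneg (G 2 1)]
  have h2 : ∑ i, ∑ j, ((G i j + G j i) / 2) * ((G i j + G j i) / 2) ≤ rsq G := by
    simp only [rsq, Fin.sum_univ_three]
    nlinarith [sq_nonneg (G 0 1 - G 1 0), sq_nonneg (G 0 2 - G 2 0), sq_nonneg (G 1 2 - G 2 1)]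
  have h3 : 0 ≤ ∑ i, ∑ j, ((G i j + G j i) / 2) * ((G i j + G j i) / 2) :=
    Finset.sum_nonneg fun i _ => Finset.sum_nonneg fun j _ => mul_self_nonneg _
  have e1 : L * (∑ i, G i i) ^ 2 ≤ |L| * (3 * rsq G) :=
    (mul_le_mul_of_nonneg_right (le_abs_self L) (sq_nonneg _)).trans
      (mul_le_mul_of_nonneg_left h1 (abs_nonneg L))
  have e2 : M * (∑ i, ∑ j, ((G i j + G j i) / 2) * ((G i j + G j i) / 2)) ≤ |M| * rsq G :=
    (mul_le_mul_of_nonneg_right (le_abs_self M) h3).trans
      (mul_le_mul_of_nonneg_left h2 (abs_nonneg M))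
  have e3 : rdens L M G G = L * (∑ i, G i i) ^ 2 +
      2 * (M * ∑ i, ∑ j, ((G i j + G j i) / 2) * ((G i j + G j i) / 2)) := by
    simp only [rdens]; ring
  rw [e3]
  linarith

variable {Ω : Set Space} {lam mu : Space → ℝ}

theorem energy_le_gint (h : Good Ω lam mu) :
    ∃ K : ℝ, 0 ≤ K ∧ ∀ u : Space → Space, ContDiff ℝ 1 u → energy Ω lam mu u ≤ K * gint Ω u := by
  have hc : Continuous fun x => 3 * |lam x| + 2 * |mu x| :=
    (continuous_const.mul (continuous_abs.comp h.lam_cont)).add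
      (continuous_const.mul (continuous_abs.comp h.mu_cont))
  obtain ⟨K, hK⟩ := h.bounded.isCompact_closure.exists_bound_of_continuousOn hc.continuousOn
  refine ⟨max K 0, le_max_right _ _, fun u hu => ?_⟩
  have hd : Continuous fun x => rsq (P136.pd u x) := by
    have := continuous_pd hu
    unfold rsq; fun_prop
  rw [energy_eq, gint, ← integral_const_mul]
  refine setIntegral_mono_on (integrableOn_of_continuous h.bounded
    (continuous_rdens h.lam_cont h.mu_cont (continuous_pd hu) (continuous_pd hu)))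
    ((integrableOn_of_continuous h.bounded hd).const_mul _) h.isOpen.measurableSet fun x hx => ?_
  refine (rdens_le_rsq _ _ _).trans (mul_le_mul_of_nonneg_right ?_ ?_)
  · exact ((le_abs_self _).trans (hK x (subset_closure hx))).trans (le_max_left _ _)
  · exact Finset.sum_nonneg fun i _ => Finset.sum_nonneg fun j _ => sq_nonneg _

theorem pd_const_smul_real {u : Space → Space} (hu : ContDiff ℝ 1 u) (a : ℝ) (x : Space) :
    P136.pd (a • u) x = a • P136.pd u x := by
  funext i j
  simp [P136.pd, fderiv_const_smul (hu.differentiable one_ne_zero x)]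

theorem form_smul_right {u v : Space → Space} (hv : ContDiff ℝ 1 v) (a : ℝ) :
    form Ω lam mu u (a • v) = a * form Ω lam mu u v := by
  rw [form, form, ← integral_const_mul]
  refine integral_congr_ae (Eventually.of_forall fun x => ?_)
  simp only [pd_const_smul_real hv, rdens, Fin.sum_univ_three, Pi.smul_apply, smul_eq_mul]
  ring

theorem form_smul_self {u : Space → Space} (hu : ContDiff ℝ 1 u) (a : ℝ) :
    form Ω lam mu (a • u) (a • u) = a ^ 2 * form Ω lam mu u u := by
  have h1 : ContDiff ℝ 1 (a • u) := hu.const_smul a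
  rw [form_smul_right hu a, form_comm, form_smul_right hu a]
  ring

/-- Weighted Cauchy inequality for the form. -/
theorem two_abs_form_le (h : Good Ω lam mu) {u v : Space → Space} (hu : ContDiff ℝ 1 u)
    (hv : ContDiff ℝ 1 v) {δ : ℝ} (hδ : 0 < δ) :
    2 * |form Ω lam mu u v| ≤ energy Ω lam mu u / δ + δ * energy Ω lam mu v := by
  have key : ∀ a : ℝ, 0 ≤ energy Ω lam mu u + 2 * a * form Ω lam mu u v + a ^ 2 * energy Ω lam mu v := by
    intro a
    have hav : ContDiff ℝ 1 (a • v) := hv.const_smul a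
    have h0 := energy_nonneg h (u + a • v)
    rw [energy_eq, form_add h hu hav, form_smul_right hv a, form_smul_self hv a, ← energy_eq,
      ← energy_eq] at h0
    linarith
  rw [div_add' _ _ _ hδ.ne', le_div_iff₀ hδ]
  rcases le_or_gt 0 (form Ω lam mu u v) with hs | hs
  · have := key (-δ); rw [abs_of_nonneg hs]; linarith
  · have := key δ; rw [abs_of_neg hs]; linarith

theorem energy_add_le (h : Good Ω lam mu) {u v : Space → Space} (hu : ContDiff ℝ 1 u)
    (hv : ContDiff ℝ 1 v) :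
    energy Ω lam mu (u + v) ≤ 2 * energy Ω lam mu u + 2 * energy Ω lam mu v := by
  have := two_abs_form_le h hu hv one_pos
  rw [energy_eq, form_add h hu hv, ← energy_eq, ← energy_eq]
  linarith [le_abs_self (form Ω lam mu u v)]

theorem energy_sub_le (h : Good Ω lam mu) {u v : Space → Space} (hu : ContDiff ℝ 1 u)
    (hv : ContDiff ℝ 1 v) :
    energy Ω lam mu (u - v) ≤ 2 * energy Ω lam mu u + 2 * energy Ω lam mu v := by
  have e : u - v = u + (-1 : ℝ) • v := by simp [sub_eq_add_neg]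
  have hn : ContDiff ℝ 1 ((-1 : ℝ) • v) := hv.const_smul (-1 : ℝ)
  rw [e]
  refine (energy_add_le h hu hn).trans ?_
  rw [energy_eq Ω lam mu ((-1 : ℝ) • v), form_smul_self hv, ← energy_eq]
  norm_num

theorem energy_zero : energy Ω lam mu 0 = 0 := by
  simp [energy, density, P136.pd]

theorem form_zero_right (u : Space → Space) : form Ω lam mu u 0 = 0 := by
  simp [form, rdens, P136.pd]

theorem minEnergy_zero (h : Good Ω lam mu) : minEnergy Ω lam mu 0 = 0 := by
  refine le_antisymm ((csInf_le (minEnergy_bddBelow h 0)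
    ⟨0, contDiff_const, fun _ _ => rfl, rfl⟩).trans energy_zero.le)
    (le_csInf (minEnergy_nonempty lam mu contDiff_const) ?_)
  rintro E ⟨v, -, -, rfl⟩
  exact energy_nonneg h v

/-- Approximate weak solutions. -/
structure AWeak (Ω : Set Space) (lam mu : Space → ℝ) (u : ℕ → Space → Space) : Prop where
  smooth : ∀ k, ContDiff ℝ 1 (u k)
  cauchy : Tendsto (fun p : ℕ × ℕ => gint Ω (u p.1 - u p.2)) atTop (𝓝 0)
  ortho : ∀ φ : Space → Space, ContDiff ℝ 1 φ → (∀ x ∈ frontier Ω, φ x = 0) →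
    Tendsto (fun k => form Ω lam mu (u k) φ) atTop (𝓝 0)

variable {lam' mu' : Space → ℝ} {u : ℕ → Space → Space}

theorem AWeak.energy_cauchy (hu : AWeak Ω lam' mu' u) (h : Good Ω lam mu) {ε : ℝ} (hε : 0 < ε) :
    ∃ N, ∀ k ≥ N, ∀ l ≥ N, energy Ω lam mu (u k - u l) < ε := by
  obtain ⟨K, hK0, hK⟩ := energy_le_gint h
  have hlt : ∀ᶠ p : ℕ × ℕ in atTop, K * gint Ω (u p.1 - u p.2) < ε := by
    have := (hu.cauchy.const_mul K)
    rw [mul_zero] at this
    exact this.eventually_lt_const hε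
  obtain ⟨⟨a, b⟩, hab⟩ := eventually_atTop.1 hlt
  exact ⟨max a b, fun k hk l hl => (hK _ ((hu.smooth k).sub (hu.smooth l))).trans_lt
    (hab (k, l) ⟨le_of_max_le_left hk, le_of_max_le_right hl⟩)⟩

theorem AWeak.energy_bounded (hu : AWeak Ω lam' mu' u) (h : Good Ω lam mu) :
    ∃ B, 0 ≤ B ∧ ∀ᶠ k in atTop, energy Ω lam mu (u k) ≤ B := by
  obtain ⟨N, hN⟩ := hu.energy_cauchy h one_pos
  refine ⟨2 + 2 * energy Ω lam mu (u N), by linarith [energy_nonneg h (u N)],
    eventually_atTop.2 ⟨N, fun k hk => ?_⟩⟩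
  have hd : ContDiff ℝ 1 (u k - u N) := (hu.smooth k).sub (hu.smooth N)
  have h1 := energy_add_le h hd (hu.smooth N)
  rw [sub_add_cancel] at h1
  linarith [hN k hk N le_rfl]

theorem AWeak.form_small (hu : AWeak Ω lam mu u) (h : Good Ω lam mu) {δ : ℝ} (hδ : 0 < δ) :
    ∀ᶠ k in atTop, ∀ φ : Space → Space, ContDiff ℝ 1 φ → (∀ x ∈ frontier Ω, φ x = 0) →
      2 * |form Ω lam mu (u k) φ| ≤ δ * (1 + energy Ω lam mu φ) := by
  obtain ⟨N, hN⟩ := hu.energy_cauchy h (show 0 < δ ^ 2 by positivity)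
  refine eventually_atTop.2 ⟨N, fun k hk φ hφ hφ0 => ?_⟩
  have hlim : Tendsto (fun l => δ * (1 + energy Ω lam mu φ) + 2 * |form Ω lam mu (u l) φ|) atTop
      (𝓝 (δ * (1 + energy Ω lam mu φ))) := by
    have h1 := (((hu.ortho φ hφ hφ0).abs.const_mul 2).const_add (δ * (1 + energy Ω lam mu φ)))
    simpa using h1
  refine ge_of_tendsto hlim (eventually_atTop.2 ⟨N, fun l hl => ?_⟩)
  have hd : ContDiff ℝ 1 (u k - u l) := (hu.smooth k).sub (hu.smooth l)
  have e : form Ω lam mu (u k) φ = form Ω lam mu (u k - u l) φ + form Ω lam mu (u l) φ := by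
    rw [form_comm Ω lam mu (u k) φ, form_comm Ω lam mu (u k - u l) φ, form_comm Ω lam mu (u l) φ,
      ← form_sub h hφ hd (hu.smooth l)]
    exact congrArg _ (sub_add_cancel _ _).symm
  have hb := two_abs_form_le h hd hφ hδ
  have hd : energy Ω lam mu (u k - u l) / δ ≤ δ := by
    rw [div_le_iff₀ hδ, ← sq]; exact (hN k hk l hl).le
  rw [e]
  linarith [abs_add_le (form Ω lam mu (u k - u l) φ) (form Ω lam mu (u l) φ)]

/-- Approximate minimality of approximate weak solutions, uniformly in the added datum. -/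
theorem AWeak.minEnergy_add (hu : AWeak Ω lam mu u) (h : Good Ω lam mu) {δ : ℝ} (hδ : 0 < δ)
    (hδ' : δ ≤ 1 / 8) :
    ∀ᶠ k in atTop, ∀ g : Space → Space, ContDiff ℝ 1 g →
      |minEnergy Ω lam mu (u k + g) -
        (energy Ω lam mu (u k) + 2 * form Ω lam mu (u k) g + minEnergy Ω lam mu g)| ≤
          δ * (1 + 4 * energy Ω lam mu g) := by
  filter_upwards [hu.form_small h hδ] with k hk g hg
  have hg0 := energy_nonneg h g
  have hu' := hu.smooth k
  have hm : minEnergy Ω lam mu g ≤ energy Ω lam mu g :=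
    csInf_le (minEnergy_bddBelow h g) ⟨g, hg, fun _ _ => rfl, rfl⟩
  have key : ∀ w, ContDiff ℝ 1 w → (∀ x ∈ frontier Ω, w x = g x) →
      |energy Ω lam mu (u k + w) -
        (energy Ω lam mu (u k) + 2 * form Ω lam mu (u k) g + energy Ω lam mu w)| ≤
          δ * (1 + 2 * energy Ω lam mu w + 2 * energy Ω lam mu g) := by
    intro w hw hwg
    have h1 : form Ω lam mu (u k) w = form Ω lam mu (u k) g + form Ω lam mu (u k) (w - g) := by
      rw [← form_sub h hu' hg (show ContDiff ℝ 1 (w - g) from hw.sub hg), add_sub_cancel]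
    have hd : ContDiff ℝ 1 (w - g) := hw.sub hg
    have h2 := hk (w - g) hd fun x hx => by simp [hwg x hx]
    have h3 := energy_sub_le h hw hg
    rw [energy_eq Ω lam mu (u k + w), form_add h hu' hw, h1, ← energy_eq, ← energy_eq]
    have e : energy Ω lam mu (u k) + 2 * (form Ω lam mu (u k) g + form Ω lam mu (u k) (w - g)) +
        energy Ω lam mu w - (energy Ω lam mu (u k) + 2 * form Ω lam mu (u k) g + energy Ω lam mu w) =
        2 * form Ω lam mu (u k) (w - g) := by ring
    rw [e, abs_mul, abs_two]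
    refine h2.trans ?_
    have := mul_le_mul_of_nonneg_left h3 hδ.le
    linarith
  have upper : (minEnergy Ω lam mu (u k + g) -
      (energy Ω lam mu (u k) + 2 * form Ω lam mu (u k) g + δ * (1 + 2 * energy Ω lam mu g))) /
        (1 + 2 * δ) ≤ minEnergy Ω lam mu g := by
    refine le_csInf (minEnergy_nonempty lam mu hg) ?_
    rintro E ⟨w, hw, hwg, rfl⟩
    have h1 := (abs_le.1 (key w hw hwg)).2
    have h2 : minEnergy Ω lam mu (u k + g) ≤ energy Ω lam mu (u k + w) :=
      csInf_le (minEnergy_bddBelow h (u k + g))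
        ⟨u k + w, hu'.add hw, fun x hx => by simp [hwg x hx], rfl⟩
    rw [div_le_iff₀ (by positivity)]
    linarith
  rw [div_le_iff₀ (by positivity)] at upper
  have lower : energy Ω lam mu (u k) + 2 * form Ω lam mu (u k) g + (1 - 2 * δ) * minEnergy Ω lam mu g -
      δ * (1 + 2 * energy Ω lam mu g) ≤ minEnergy Ω lam mu (u k + g) := by
    refine le_csInf (minEnergy_nonempty lam mu (hu'.add hg)) ?_
    rintro E ⟨v, hv, hvg, rfl⟩
    have hwg : ∀ x ∈ frontier Ω, (v - u k) x = g x := fun x hx => by simp [hvg x hx]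
    have hd : ContDiff ℝ 1 (v - u k) := hv.sub hu'
    have h1 := (abs_le.1 (key (v - u k) hd hwg)).1
    rw [add_sub_cancel] at h1
    have h2 : minEnergy Ω lam mu g ≤ energy Ω lam mu (v - u k) :=
      csInf_le (minEnergy_bddBelow h g) ⟨v - u k, hv.sub hu', hwg, rfl⟩
    have h4 := mul_le_mul_of_nonneg_left h2 (show 0 ≤ 1 - 2 * δ by linarith)
    linarith
  have h6 := mul_le_mul_of_nonneg_left hm hδ.le
  rw [abs_le]
  constructor <;> linarith

/-- The bilinear identity for approximate weak solutions. -/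
theorem form_tendsto {lam₁ mu₁ lam₂ mu₂ : Space → ℝ} (h₁ : Good Ω lam₁ mu₁) (h₂ : Good Ω lam₂ mu₂)
    (hS : SameMap Ω lam₁ mu₁ lam₂ mu₂) {u v : ℕ → Space → Space} (hu : AWeak Ω lam₁ mu₁ u)
    (hv : AWeak Ω lam₂ mu₂ v) :
    Tendsto (fun k => form Ω lam₁ mu₁ (u k) (v k) - form Ω lam₂ mu₂ (u k) (v k)) atTop (𝓝 0) := by
  obtain ⟨B, hB0, hB⟩ := hv.energy_bounded h₁
  obtain ⟨B', hB'0, hB'⟩ := hu.energy_bounded h₂
  rw [Metric.tendsto_nhds]
  intro ε hε
  set δ := min (1 / 8) (ε / (4 * (1 + B + B'))) with hδdef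
  have hδ : 0 < δ := lt_min (by norm_num) (by positivity)
  have hδε : δ * (4 * (1 + B + B')) ≤ ε :=
    (le_div_iff₀ (by positivity)).1 (min_le_right _ _)
  filter_upwards [hB, hB', hu.minEnergy_add h₁ hδ (min_le_left _ _),
    hv.minEnergy_add h₂ hδ (min_le_left _ _)] with k b b' eu ev
  have a1 := eu (v k) (hv.smooth k)
  have a2 := ev (u k) (hu.smooth k)
  have s1 := eu 0 contDiff_const
  have s2 := ev 0 contDiff_const
  rw [form_zero_right, minEnergy_zero h₁, energy_zero, add_zero, add_zero, mul_zero, add_zero] at s1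
  rw [form_zero_right, minEnergy_zero h₂, energy_zero, add_zero, add_zero, mul_zero, add_zero] at s2
  rw [hS (v k) (hv.smooth k)] at a1
  rw [← hS (v k + u k) ((hv.smooth k).add (hu.smooth k)), ← hS (u k) (hu.smooth k),
    add_comm (v k) (u k), form_comm Ω lam₂ mu₂ (v k) (u k)] at a2
  rw [abs_le] at a1 a2 s1 s2
  have m1 := mul_le_mul_of_nonneg_left b hδ.le
  have m2 := mul_le_mul_of_nonneg_left b' hδ.le
  rw [Real.dist_eq, sub_zero, abs_lt]
  constructor <;> linarith

end

end Vale.Agent.P136.Full
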