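import Mathlib
import Vale.Agent.P136.Full.Form.Real
import Vale.Agent.P136.Full.Alg.Coef
import Vale.Agent.P136.Full.Spec

/-!
# P136: real and imaginary parts of approximate solutions; the module statement `form`
-/

open MeasureTheory Set Filter
open scoped Topology ContDiff

namespace Vale.Agent.P136.Full

noncomputable section

/-- The Jacobian of a complex field, as a matrix. -/
def jac (u : Space → C3) (x : Space) (i j : Fin 3) : ℂ := pd j (fun y => u y i) x

theorem pd_reField {u : Space → C3} (hu : ContDiff ℝ 1 u) (x : Space) (i j : Fin 3) :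
    P136.pd (reField u) x i j = (jac u x i j).re := by
  have hd : DifferentiableAt ℝ u x := hu.differentiable one_ne_zero x
  have h : ∀ k, HasFDerivAt (fun y => reField u y k)
      (Complex.reCLM.comp (fderiv ℝ (fun y => u y k) x)) x := fun k =>
    Complex.reCLM.hasFDerivAt.comp x (differentiableAt_pi.1 hd k).hasFDerivAt
  rw [P136.pd, (hasFDerivAt_pi.2 h).fderiv]
  rfl

theorem pd_imField {u : Space → C3} (hu : ContDiff ℝ 1 u) (x : Space) (i j : Fin 3) :
    P136.pd (imField u) x i j = (jac u x i j).im := by
  have hd : DifferentiableAt ℝ u x := hu.differentiable one_ne_zero x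
  have h : ∀ k, HasFDerivAt (fun y => imField u y k)
      (Complex.imCLM.comp (fderiv ℝ (fun y => u y k) x)) x := fun k =>
    Complex.imCLM.hasFDerivAt.comp x (differentiableAt_pi.1 hd k).hasFDerivAt
  rw [P136.pd, (hasFDerivAt_pi.2 h).fderiv]
  rfl

theorem contDiff_reField {u : Space → C3} (hu : ContDiff ℝ 1 u) : ContDiff ℝ 1 (reField u) :=
  contDiff_pi.2 fun i => Complex.reCLM.contDiff.comp (contDiff_pi.1 hu i)

theorem contDiff_imField {u : Space → C3} (hu : ContDiff ℝ 1 u) : ContDiff ℝ 1 (imField u) :=
  contDiff_pi.2 fun i => Complex.imCLM.contDiff.comp (contDiff_pi.1 hu i)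

theorem reField_sub (u w : Space → C3) : reField (u - w) = reField u - reField w := by
  funext x i; simp [reField]

theorem imField_sub (u w : Space → C3) : imField (u - w) = imField u - imField w := by
  funext x i; simp [imField]

theorem continuous_jac {u : Space → C3} (hu : ContDiff ℝ 1 u) : Continuous (jac u) :=
  continuous_pi fun i => continuous_pi fun _ =>
    ((contDiff_pi.1 hu i).continuous_fderiv one_ne_zero).clm_apply continuous_const

theorem Moduli.good (M : Moduli) {Ω : Set Space} (hΩ : IsOpen Ω) (hb : Bornology.IsBounded Ω) :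
    Good Ω M.lam M.mu :=
  ⟨hΩ, hb, M.lam_smooth.continuous, M.mu_smooth.continuous, fun x _ => ⟨M.mu_pos x, M.bulk_pos x⟩⟩

theorem cform_split (M : Moduli) {Ω : Set Space} (hΩ : IsOpen Ω) (hb : Bornology.IsBounded Ω)
    {u v : Space → C3} (hu : ContDiff ℝ 1 u) (hv : ContDiff ℝ 1 v) :
    M.cform Ω u v =
      ((form Ω M.lam M.mu (reField u) (reField v) - form Ω M.lam M.mu (imField u) (imField v) : ℝ) : ℂ) +
      ((form Ω M.lam M.mu (reField u) (imField v) + form Ω M.lam M.mu (imField u) (reField v) : ℝ) : ℂ) *
        Complex.I := by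
  have h := M.good hΩ hb
  have e : ∀ x, (M.lamC x * (divv u x * divv v x) + 2 * M.muC x * ∑ i, ∑ j,
      ((pd j (fun y => u y i) x + pd i (fun y => u y j) x) / 2) *
        ((pd j (fun y => v y i) x + pd i (fun y => v y j) x) / 2)) =
      ((rdens (M.lam x) (M.mu x) (P136.pd (reField u) x) (P136.pd (reField v) x) -
          rdens (M.lam x) (M.mu x) (P136.pd (imField u) x) (P136.pd (imField v) x) : ℝ) : ℂ) +
      ((rdens (M.lam x) (M.mu x) (P136.pd (reField u) x) (P136.pd (imField v) x) +
          rdens (M.lam x) (M.mu x) (P136.pd (imField u) x) (P136.pd (reField v) x) : ℝ) : ℂ) *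
        Complex.I := by
    intro x
    rw [funext fun i => funext (pd_reField hu x i), funext fun i => funext (pd_reField hv x i),
      funext fun i => funext (pd_imField hu x i), funext fun i => funext (pd_imField hv x i),
      ← cdens_split (M.lam x) (M.mu x) (jac u x) (jac v x)]
    rfl
  have ire := fun {a b : Space → Space} (ha : ContDiff ℝ 1 a) (hb' : ContDiff ℝ 1 b) =>
    integrableOn_of_continuous hb
      (continuous_rdens h.lam_cont h.mu_cont (continuous_pd ha) (continuous_pd hb'))
  have hu1 := contDiff_reField hu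
  have hu2 := contDiff_imField hu
  have hv1 := contDiff_reField hv
  have hv2 := contDiff_imField hv
  unfold Moduli.cform form
  simp only [e]
  have i1 : IntegrableOn (fun x => ((rdens (M.lam x) (M.mu x) (P136.pd (reField u) x)
      (P136.pd (reField v) x) - rdens (M.lam x) (M.mu x) (P136.pd (imField u) x)
      (P136.pd (imField v) x) : ℝ) : ℂ)) Ω := ((ire hu1 hv1).sub (ire hu2 hv2)).ofReal
  have i2 : IntegrableOn (fun x => ((rdens (M.lam x) (M.mu x) (P136.pd (reField u) x)
      (P136.pd (imField v) x) + rdens (M.lam x) (M.mu x) (P136.pd (imField u) x)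
      (P136.pd (reField v) x) : ℝ) : ℂ) * Complex.I) Ω :=
    ((ire hu1 hv2).add (ire hu2 hv1)).ofReal.mul_const Complex.I
  rw [integral_add i1 i2,
    integral_mul_const, integral_complex_ofReal, integral_complex_ofReal,
    integral_sub (ire hu1 hv1) (ire hu2 hv2), integral_add (ire hu1 hv2) (ire hu2 hv1)]

theorem gint_le {Ω : Set Space} (hb : Bornology.IsBounded Ω) {u : Space → C3} (hu : ContDiff ℝ 1 u) :
    gint Ω (reField u) ≤ ∫ x in Ω, gradSqr u x ∧ gint Ω (imField u) ≤ ∫ x in Ω, gradSqr u x := by
  have hc : Continuous (gradSqr u) :=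
    continuous_finsetSum _ fun i _ => continuous_finsetSum _ fun j _ =>
      (((contDiff_pi.1 hu i).continuous_fderiv one_ne_zero).clm_apply continuous_const).norm.pow 2
  constructor
  · have hr : Continuous fun x => rsq (P136.pd (reField u) x) := by
      have := continuous_pd (contDiff_reField hu)
      unfold rsq; fun_prop
    refine setIntegral_mono (integrableOn_of_continuous hb hr) (integrableOn_of_continuous hb hc)
      fun x => ?_
    refine Finset.sum_le_sum fun i _ => Finset.sum_le_sum fun j _ => ?_
    rw [pd_reField hu, ← sq_abs]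
    exact pow_le_pow_left₀ (abs_nonneg _) (Complex.abs_re_le_norm _) 2
  · have hr : Continuous fun x => rsq (P136.pd (imField u) x) := by
      have := continuous_pd (contDiff_imField hu)
      unfold rsq; fun_prop
    refine setIntegral_mono (integrableOn_of_continuous hb hr) (integrableOn_of_continuous hb hc)
      fun x => ?_
    refine Finset.sum_le_sum fun i _ => Finset.sum_le_sum fun j _ => ?_
    rw [pd_imField hu, ← sq_abs]
    exact pow_le_pow_left₀ (abs_nonneg _) (Complex.abs_im_le_norm _) 2

theorem gint_nonneg {Ω : Set Space} (u : Space → Space) : 0 ≤ gint Ω u :=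
  integral_nonneg fun _ => Finset.sum_nonneg fun _ _ => Finset.sum_nonneg fun _ _ => sq_nonneg _

theorem ApproxSol.aweak {Ω : Set Space} {M : Moduli} {u : ℕ → Space → C3} (hu : ApproxSol Ω M u)
    (hΩ : IsOpen Ω) (hb : Bornology.IsBounded Ω) :
    AWeak Ω M.lam M.mu (fun k => reField (u k)) ∧ AWeak Ω M.lam M.mu (fun k => imField (u k)) := by
  have hlim : ∀ φ : Space → Space, ContDiff ℝ 1 φ → (∀ x ∈ frontier Ω, φ x = 0) →
      Tendsto (fun k => form Ω M.lam M.mu (reField (u k)) φ) atTop (𝓝 0) ∧
      Tendsto (fun k => form Ω M.lam M.mu (imField (u k)) φ) atTop (𝓝 0) := by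
    intro φ hφ hφ0
    set Φ : Space → C3 := fun x i => (φ x i : ℂ) with hΦ
    have hΦc : ContDiff ℝ 1 Φ := contDiff_pi.2 fun i => Complex.ofRealCLM.contDiff.comp (contDiff_pi.1 hφ i)
    have h := hu.ortho Φ hΦc fun x hx => by funext i; simp [hΦ, hφ0 x hx]
    have er : reField Φ = φ := by funext x i; simp [reField, hΦ]
    have ei : imField Φ = 0 := by funext x i; simp [imField, hΦ]
    have e : ∀ k, M.cform Ω (u k) Φ = (form Ω M.lam M.mu (reField (u k)) φ : ℂ) +
        (form Ω M.lam M.mu (imField (u k)) φ : ℂ) * Complex.I := by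
      intro k
      rw [cform_split M hΩ hb (hu.smooth k) hΦc, er, ei, form_zero_right, form_zero_right, sub_zero,
        zero_add]
    simp only [e] at h
    constructor
    · have := (Complex.continuous_re.tendsto 0).comp h
      simpa [Function.comp_def] using this
    · have := (Complex.continuous_im.tendsto 0).comp h
      simpa [Function.comp_def] using this
  refine ⟨⟨fun k => contDiff_reField (hu.smooth k), ?_, fun φ hφ hφ0 => (hlim φ hφ hφ0).1⟩,
    ⟨fun k => contDiff_imField (hu.smooth k), ?_, fun φ hφ hφ0 => (hlim φ hφ hφ0).2⟩⟩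
  · refine squeeze_zero (fun p => gint_nonneg _) (fun p => ?_) hu.cauchy
    have hd : ContDiff ℝ 1 (u p.1 - u p.2) := (hu.smooth p.1).sub (hu.smooth p.2)
    rw [← reField_sub]
    exact (gint_le hb hd).1
  · refine squeeze_zero (fun p => gint_nonneg _) (fun p => ?_) hu.cauchy
    have hd : ContDiff ℝ 1 (u p.1 - u p.2) := (hu.smooth p.1).sub (hu.smooth p.2)
    rw [← imField_sub]
    exact (gint_le hb hd).2

/-- E: equal maps give the bilinear identity for approximate solutions. -/
theorem form : FormStmt := by
  intro Ω M₁ M₂ hΩ hb hS u v hu hv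
  obtain ⟨ur, ui⟩ := hu.aweak hΩ hb
  obtain ⟨vr, vi⟩ := hv.aweak hΩ hb
  have g₁ := M₁.good hΩ hb
  have g₂ := M₂.good hΩ hb
  have a1 := form_tendsto g₁ g₂ hS vr ur
  have a2 := form_tendsto g₁ g₂ hS vi ui
  have a3 := form_tendsto g₁ g₂ hS vi ur
  have a4 := form_tendsto g₁ g₂ hS vr ui
  have hlim := ((Complex.continuous_ofReal.tendsto _).comp (a1.sub a2)).add
    (((Complex.continuous_ofReal.tendsto _).comp (a3.add a4)).mul_const Complex.I)
  simp only [Function.comp_def, sub_zero, add_zero, Complex.ofReal_zero, zero_mul] at hlim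
  refine hlim.congr fun k => ?_
  rw [cform_split M₁ hΩ hb (hu.smooth k) (hv.smooth k),
    cform_split M₂ hΩ hb (hu.smooth k) (hv.smooth k),
    form_comm Ω M₁.lam M₁.mu (reField (u k)) (reField (v k)),
    form_comm Ω M₁.lam M₁.mu (imField (u k)) (imField (v k)),
    form_comm Ω M₁.lam M₁.mu (reField (u k)) (imField (v k)),
    form_comm Ω M₁.lam M₁.mu (imField (u k)) (reField (v k)),
    form_comm Ω M₂.lam M₂.mu (reField (u k)) (reField (v k)),
    form_comm Ω M₂.lam M₂.mu (imField (u k)) (imField (v k)),
    form_comm Ω M₂.lam M₂.mu (reField (u k)) (imField (v k)),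
    form_comm Ω M₂.lam M₂.mu (imField (u k)) (reField (v k))]
  push_cast
  ring

end

end Vale.Agent.P136.Full
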